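import Vale.Agent.Lib.P302N.H12L5

/-!
# P302: a bin packing instance with `OPT - LP ≥ 34127/27648 > 1.2343`

The instance has 203 items, all of size in `(1/4, 1/2)` of the bin capacity: a six-item gadget
nested inside five levels of a pair-packing block with twelve hosts.  `OPT ≥ 69` is certified
by a nesting lemma for disjoint fitting triples and small exhaustive searches, and
`LP ≤ 1873585/27648` by an explicit fractional solution of the configuration LP.  The bound
exceeds `59/48`.
-/

namespace Vale.Agent.Results.P302.Gap34127over27648

open Vale.Agent.Lib.P302T

theorem result : ∃ a : List ℚ, IsInstance a ∧ (34127 : ℝ) / 27648 ≤ (OPT a : ℝ) - LP a :=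
  ⟨_, Vale.Agent.Lib.P302N.H12L5.gap_bound⟩

end Vale.Agent.Results.P302.Gap34127over27648
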