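import Vale.Agent.Lib.P302N.H17L6

/-!
# P302: a bin packing instance with `OPT - LP ≥ 827807/663552 > 1.2475`

The instance has 332 items, all of size in `(1/4, 1/2)` of the bin capacity: a six-item gadget
nested inside six levels of a pair-packing block with seventeen hosts.  `OPT ≥ 112` is
certified by a nesting lemma for disjoint fitting triples and small exhaustive searches, and
`LP ≤ 73490017/663552` by an explicit fractional solution of the configuration LP.
-/

namespace Vale.Agent.Results.P302.Gap827807over663552

open Vale.Agent.Lib.P302T

theorem result : ∃ a : List ℚ, IsInstance a ∧ (827807 : ℝ) / 663552 ≤ (OPT a : ℝ) - LP a :=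
  ⟨_, Vale.Agent.Lib.P302N.H17L6.gap_bound⟩

end Vale.Agent.Results.P302.Gap827807over663552
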