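import Vale.Agent.Lib.P302N.H25.Main

/-!
# P302: a bin packing instance with `OPT - LP ≥ 89559313/71663616 > 1.2497`

The instance has 554 items, all of size in `(1/4, 1/2)` of the bin capacity: a six-item gadget
nested inside seven levels of a pair-packing block with twenty-five hosts.  `OPT ≥ 186` is
certified by a nesting lemma for disjoint fitting triples and small exhaustive searches, and
`LP ≤ 13239873263/71663616` by an explicit fractional solution of the configuration LP.
-/

namespace Vale.Agent.Results.P302.Gap89559313over71663616

open Vale.Agent.Lib.P302T

theorem result : ∃ a : List ℚ, IsInstance a ∧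
    (89559313 : ℝ) / 71663616 ≤ (OPT a : ℝ) - LP a :=
  ⟨_, Vale.Agent.Lib.P302N.H25.gap_bound⟩

end Vale.Agent.Results.P302.Gap89559313over71663616
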